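import Vale.Agent.P236JY.EmF
import Vale.Agent.P236EL.Cm

/-!
# P236JA / Bas : a basis of a cohomology group from one check
-/

noncomputable section

namespace Vale.Agent.P236JX

open Vale.Agent.P236EL Vale.Agent.P236KE Vale.Agent.P236K2 Vale.Agent.P236K3
  Vale.Agent.P236JF Vale.Agent.P236JR Vale.Agent.P236J3 Vale.Agent.P236F Vale.Agent.P251.F
  Vale.Agent.P236SY AddSubgroup

/-- a step of a chain for generators; the flag tells whether the lists of the level are used -/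
structure St : Type where
  a : Nat
  c : CN
  c1 : CN
  cb : CN
  c2 : CN
  u : Bool

/-- a step of a chain for coboundaries -/
structure Nt : Type where
  c : CN
  c1 : CN
  c2 : CN
  c3 : CN
  ls : List (List Tr)

/-- a chain for the independence in a level -/
structure Nk : Type where
  k : Nat
  cb : CN
  cz : CN
  nt : List Nt

/-- the lists of a step -/
def toSg (bl : List Be) (g : St) : Sg := ⟨g.a, g.c, g.c1, g.cb, g.c2,
  (bl.filter fun e => grd g.u (Nat.beq e.k g.a)).map fun e => (e.k, e.l)⟩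
/-- the lists of level at least `k` -/
def zG (k : Nat) (zs : List Be) : List (List Tr) := (zs.filter fun e => Nat.ble k e.k).map Be.l
/-- the lists of level at least `k` which fit the window -/
def zK (k : Nat) (c : CN) (zs : List Be) : List (List Tr) :=
  (zs.filter fun e => grd (Nat.ble k e.k) (Le [(0, e.k + 1)] c)).map Be.l

namespace JD

variable (E : JD) (s T : Nat)

def nt1 (zs : List Be) (n : Nk) (g : Nt) (t : List Nt) (r : Bool) : Bool :=
  grd (Le g.c2 n.cz || t.any fun g' => Le g.c2 g'.c) (grd (Le g.c2 g.c3)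
    (grd (E.geF s T g.c g.c1 n.cb g.c2 (List.append (zK n.k g.c2 zs) g.ls))
      (grd (g.ls.isEmpty || E.idF s T [(nat_lit 0, nat_lit 0)] g.c3 g.ls) r)))
/-- the chain for coboundaries -/
def ntC (zs : List Be) (n : Nk) (nt : List Nt) : Bool :=
  List.rec (motive := fun _ => Bool) true (E.nt1 s T zs n) nt
/-- independence in one level -/
def ikC (bl zs : List Be) (n : Nk) : Bool :=
  grd (Le [(0, n.k)] n.cb) (grd (Le [(0, n.k + 1)] n.cz) (grd (Le n.cz n.cb) (grd (Vis n.cb n.cz)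
    (grd (n.nt.any fun g => Le [(0, n.k)] g.c) (grd (E.ntC s T zs n n.nt)
      (E.idMF s T n.cb n.cz (zG n.k zs) (lvK n.k bl)))))))
/-- leading terms of coboundaries -/
def zA (zs : List Be) : List Nat → Bool := List.rec (motive := fun _ => List Nat → Bool)
  (fun _ => true) (fun e _ ih a => grd (Nat.beq e.b (e.k + 1))
    (grd (E.zCF s T e.k (a.headD 0) e.l) (ih a.tail))) zs
def exB (lo : Nat) (e : Be) : Bool := grd (Nat.blt lo e.b) (grd (Nat.blt e.k e.b)
  (force (Nat.sub e.b e.k) fun p => E.exCF s T e.k p e.l))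
def stA (st : List St) (a : Nat) (r : Bool) : Bool :=
  grd (st.any fun g => grd (Nat.ble a g.a) (Le [(0, a)] g.c)) r
/-- **all checks for one cohomology group** -/
def atC (lo n N : Nat) (bl zs : List Be) (za : List Nat) (st : List St) (nk : List Nk) : Bool :=
  grd (force (Nat.succ s) fun s' => E.htAF s' T lo n) (grd (bl.all (E.exB s T lo))
    (grd (E.hgCF s T (st.map (toSg bl))) (grd (E.em s T [(nat_lit 0, N)])
      (grd (loop (stA st) N true) (grd (E.zA s T zs za) (nk.all (E.ikC s T bl zs)))))))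

end JD

variable [Fact (Nat.Prime 3)] {G : ℕ → Type} [∀ q, Fintype (G q)] (R : Rs 3 K G)
  (θ : G 0 → G 0 → Cob Laz 1) (ix : ∀ q, G (q + 1) → ℕ) (s T : ℕ)

/-- cochains whose terms lie in `S` -/
def LvJ (M M' : Ideal A) (S : AddSubgroup (G (s + 1) → A)) : AddSubgroup (G 0 → Cob Laz s) where
  carrier := {z | ∃ u ∈ S, RvJ p3 R s T M M' z u}
  zero_mem' := ⟨0, zero_mem _, RJ.zero⟩
  add_mem' := fun ⟨_, h1, h2⟩ ⟨_, h3, h4⟩ => ⟨_, add_mem h1 h3, RJ.add h2 h4⟩
  neg_mem' := fun ⟨_, h1, h2⟩ => ⟨_, neg_mem h1, RJ.neg h2⟩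

/-- the facts about one cohomology group: classes `bl`, leading terms `zs` of coboundaries, levels
`ks` with independent classes -/
structure At (bl zs : List Be) (ks : List ℕ) : Prop where
  ex : ∀ e ∈ bl, ∃ x, Rb R θ ix s T x e
  lt : ∀ e ∈ bl, e.k < e.b
  hg : ∀ (a : ℕ) (𝒵 : AddSubgroup (G 0 → Cob Laz s)), (∀ e ∈ bl, a ≤ e.k →
    vL (ix s) e.l ∈ Sp R θ (e.k - 2) (e.k + 1) T 𝒵) → Hg R θ a T 𝒵
  z : ∀ e ∈ zs, Rb R θ ix s T 0 e
  ik : ∀ k ∈ ks, Ik R θ ix s T bl k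

variable {R θ ix s T} {r : Rs 3 K G} {bl zs : List Be} {ks : List ℕ} {c c' : CN} {k m : ℕ}
  {gh : List (List Tr)}

theorem At.gn (h : At R θ ix s T bl zs ks) : Gn R θ ix s T bl :=
  fun 𝒵 h1 => h.hg 0 𝒵 fun e he _ => h1 e he

omit [∀ q, Fintype (G q)] in
theorem lw_mem (hn : bl.length = m) (d : Fin m → ℤ) :
    lw (ix s) k bl d ∈ spn (ix s) (lvK k bl) := sum_mem fun i _ => by
  split_ifs with h
  · refine zsmul_mem (mem_spn (List.mem_map.2 ⟨_, List.mem_filter.2 ⟨?_, Nat.beq_eq ▸ h⟩, rfl⟩)) _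
    rw [gB, List.getD_eq_getElem _ _ (hn ▸ i.2)]
    exact List.getElem_mem _
  · rw [zero_smul]
    exact zero_mem _

variable [DecidableEq (G 0)] {E : JD} {Tm s3 s4 : ℕ}

/-- **a basis with given representatives** -/
theorem At.bs (h : At R θ ix s T bl zs ks) (H : Wd R θ) (hk : (bl.all fun e => e.k ∈ ks) = true)
    {x : Fin m → G 0 → Cob Laz s} (hn : bl.length = m)
    (hx : ∀ i : Fin m, Rb R θ ix s T (x i) (gB bl i)) :
    ∃ B : Bs R θ ix s T m bl, ∀ i, (B.x i).1 = x i :=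
  exists_bs H hn hx h.lt h.gn fun e he => h.ik _ (of_decide_eq_true (List.all_eq_true.1 hk e he))

/-- **a basis** -/
theorem At.bs' (h : At R θ ix s T bl zs ks) (H : Wd R θ) (hk : (bl.all fun e => e.k ∈ ks) = true)
    (hn : bl.length = m) : Nonempty (Bs R θ ix s T m bl) := by
  have h1 : ∀ i : Fin m, ∃ x, Rb R θ ix s T x (gB bl i) := fun i => h.ex _ (by
    rw [gB, List.getD_eq_getElem _ _ (hn ▸ i.2)]
    exact List.getElem_mem _)
  choose x hx using h1
  exact (h.bs H hk hn hx).elim fun B _ => ⟨B⟩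

namespace WxJ

variable (H : WxJ R θ E ix Tm s3 s4)

include H

theorem ikM (hc : E.idM s T c c' gh (lvK k bl) = true) (hn : bl.length = m) (d : Fin m → ℤ)
    (h : lw (ix s) k bl d ∈ spn (ix s) gh ⊔ R.BdJ s T (mI c) (mI c')) (i : Fin m)
    (hi : (gB bl i).k = k) : (d i : ZMod 3) = 0 := by
  induction bl generalizing m with
  | nil => subst hn; exact i.elim0
  | cons e bl ih =>
    obtain rfl : m = bl.length + 1 := hn.symm
    rw [lw_cons] at h
    by_cases h1 : e.k = k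
    · rw [lvK, List.filter_cons_of_pos (by simpa using h1), List.map_cons] at hc
      obtain ⟨h2, h3⟩ := grd_spec hc
      rw [if_pos h1] at h
      have h4 := sub_mem (sup_le_sup_right (spn_le fun _ h => mem_spn
        (List.mem_append_right (lvK k bl) h)) _ h) (mem_sup_left (spn_le (fun _ h => mem_spn
          (List.mem_append_left gh h)) (lw_mem rfl fun i => d i.succ)))
      rw [add_sub_cancel_right] at h4
      rcases zs3 (d 0) (vL (ix s) e.l) with e1 | e1 | e1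
      · rw [e1.2, zero_add] at h
        exact Fin.cases (fun _ => e1.1) (fun j hj => ih h3 rfl _ h j hj) i hi
      · exact ((H.nm h2).2.2.2 (e1 ▸ h4)).elim
      · exact ((H.nm h2).2.2.2 (e1.2 ▸ neg_smul (d 0) (vL (ix s) e.l) ▸ neg_mem h4)).elim
    · rw [lvK, List.filter_cons_of_neg (by simpa using h1)] at hc
      rw [if_neg h1, zero_smul, zero_add] at h
      exact Fin.cases (fun h => (h1 h).elim) (fun j hj => ih hc rfl _ h j hj) i hi

theorem ntJ {n : Nk} {nt : List Nt} (hc : E.ntC s T zs n nt = true)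
    (h1 : Le [(0, n.k)] n.cb = true) (h2 : Le [(0, n.k + 1)] n.cz = true)
    (h3 : Le n.cz n.cb = true) (h4 : Vis n.cb n.cz = true)
    (hz : ∀ e ∈ zs, RL R θ ix s T [(0, e.k)] [(0, e.k + 1)] 0 e.l) :
    ∀ g ∈ nt, Ax (BQ 3 θ (R.deg 0) T 3 s) (mI g.c)
      (· ∈ LvJ R s T (mI n.cb) (mI n.cz) (spn (ix s) (zG n.k zs))) := by
  induction nt with
  | nil => exact fun _ h => nomatch h
  | cons g t ih =>
    change E.nt1 s T zs n g t (E.ntC s T zs n t) = true at hc
    rw [JD.nt1, H.geF_eq, H.idF_eq] at hc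
    obtain ⟨h5, h6⟩ := grd_spec hc
    obtain ⟨h6, h7⟩ := grd_spec h6
    obtain ⟨h7, h8⟩ := grd_spec h7
    obtain ⟨h8, h9⟩ := grd_spec h8
    refine List.forall_mem_cons.2 ⟨?_, ih h9⟩
    obtain ⟨a1, a2, a3, a4, a5, a6⟩ := H.ge h7
    refine H.wd.ax_step a2 a1 H.wd.xsB (inv_mI _) (inv_mI _) (inv_mI _) (inv_mI _) a4 a3 bot_le a5
      bot_le (.mem le_rfl) (fun x hx => ⟨0, zero_mem _, H.wd.of_bf a2 a1.le (inv_mI _)
        (Vis.mul h4) hx⟩) (a6.trans (sup_le_sup_right (spn_append.trans (sup_le_sup_right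
          (spn_le fun _ hl => ?_) _)) _)) (fun u hu => ?_) ?_
    · obtain ⟨e, he, rfl⟩ := List.mem_map.1 hl
      obtain ⟨b1, b2⟩ := List.mem_filter.1 he
      obtain ⟨b2, b3⟩ := grd_spec b2
      obtain ⟨y, hy, b4⟩ := (hz e b1).ex
      have b5 : ∀ j, mI [(0, e.k + j)] ≤ mI [(0, n.k + j)] := fun j => Le.mI (by
        simpa [Le, inU_one] using Nat.le_of_ble_eq_true b2)
      exact ⟨_, mem_inf.2 ⟨⟨_, mem_spn (List.mem_map.2 ⟨e, List.mem_filter.2 ⟨b1, b2⟩, rfl⟩),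
        RJ.mono b4 ((b5 0).trans (Le.mI h1)) ((b5 1).trans (Le.mI h2))⟩, sub_mem (zero_mem _) hy⟩,
        RJ.mono b4 ((b5 0).trans (Le.mI h1)) (Le.mI b3)⟩
    · rcases Bool.or_eq_true _ _ ▸ h8 with b1 | b1
      · rw [List.isEmpty_iff.1 b1] at hu
        exact .inl hu
      · exact (H.ne_of b1 h6 hu).imp_right fun h x hx b2 => (h x (.of (H.wd.bz hx) b2) hx).elim
    · rcases Bool.or_eq_true _ _ ▸ h5 with b1 | b1
      · exact fun x hx hx' => ⟨0, zero_mem _, RJ.of_sub RJ.zero (inv_mI _) (H.wd.bz hx).1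
          (Fl_mono p3 ((Le.mI b1).trans (Le.mI h3)) hx')
          (by simpa using Fl_mono p3 (Le.mI b1) hx')⟩
      · obtain ⟨g', b2, b3⟩ := List.any_eq_true.1 b1
        exact (ih h9 g' b2).le (Le.mI b3)

theorem zA {za : List ℕ} (hc : E.zA s T zs za = true) : ∀ e ∈ zs, e.b = e.k + 1 ∧ s < E.Q ∧
    RL R θ ix s T [(0, e.k)] [(0, e.k + 1)] 0 e.l := by
  induction zs generalizing za with
  | nil => exact fun _ h => nomatch h
  | cons e zs ih =>
    obtain ⟨h1, h2⟩ := grd_spec hc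
    obtain ⟨h2, h3⟩ := grd_spec h2
    exact List.forall_mem_cons.2 ⟨⟨Nat.eq_of_beq_eq_true h1, H.zJ (H.zCF h2)⟩, ih h3⟩

end WxJ

namespace WN

variable (H : WN R r θ E ix Tm s3 s4)

include H

theorem ik {n : Nk} (hs : s < E.Q) (hc : E.ikC s T bl zs n = true)
    (hz : ∀ e ∈ zs, RL R θ ix s T [(0, e.k)] [(0, e.k + 1)] 0 e.l) : Ik r θ ix s T bl n.k := by
  intro m hn d h
  obtain ⟨h1, h2⟩ := grd_spec hc
  obtain ⟨h2, h3⟩ := grd_spec h2
  obtain ⟨h3, h4⟩ := grd_spec h3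
  obtain ⟨h4, h5⟩ := grd_spec h4
  obtain ⟨h5, h6⟩ := grd_spec h5
  obtain ⟨h6, h7⟩ := grd_spec h6
  obtain ⟨g, h8, h9⟩ := List.any_eq_true.1 h5
  obtain ⟨y', hy', a2⟩ := (H.nr.symm.rc hs.le (by omega) h).ex
  obtain ⟨u, hu, a3⟩ := H.toWxJ.ntJ h6 h1 h2 h3 h4 hz g h8 _ (sub_mem (zero_mem _) hy')
    (Fl_mono p3 ((mI_pow _).ge.trans (Le.mI h9)) a2.fl)
  refine H.toWxJ.ikM (H.toWxJ.idMF h7) hn d ?_
  simpa using add_mem_sup hu (sub_mem a3.bd (RJ.mono a2.rvJ ((mI_pow _).ge.trans (Le.mI h1))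
    ((mI_pow _).ge.trans (Le.mI h2))).bd)

/-- **the facts about one cohomology group** -/
theorem at' {lo n N : ℕ} {za : List ℕ} {st : List St} {nk : List Nk}
    (hc : E.atC s T lo n N bl zs za st nk = true) : At r θ ix s T bl zs (nk.map Nk.k) := by
  obtain ⟨h1, h2⟩ := grd_spec hc
  obtain ⟨h2, h3⟩ := grd_spec h2
  obtain ⟨h3, h4⟩ := grd_spec h3
  obtain ⟨h4, h5⟩ := grd_spec h4
  obtain ⟨h5, h6⟩ := grd_spec h5
  obtain ⟨h6, h7⟩ := grd_spec h6
  rw [force_eq] at h1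
  have a1 := H.toWxJ.hi (H.toWxJ.htAF h1)
  have a2 := H.toWxJ.zA h6
  have a3 := fun e he => grd_spec (List.all_eq_true.1 h2 e he)
  have a4 : ∀ e ∈ bl, e.k < e.b := fun e he => Nat.blt_eq ▸ (grd_spec (a3 e he).2).1
  refine ⟨fun e he => ?_, a4, fun a 𝒵 h => ?_, fun e he => ?_, fun k hk => ?_⟩
  · have a5 := (grd_spec (a3 e he).2).2
    rw [force_eq] at a5
    have a6 : e.k + Nat.sub e.b e.k = e.b := Nat.add_sub_cancel' (a4 e he).le
    have a7 := H.ex (H.toWxJ.exCF a5) a1 (by rw [a6]; exact Nat.blt_eq ▸ (a3 e he).1)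
    rwa [a6] at a7
  · rcases lt_or_ge a N with a5 | a5
    · obtain ⟨g, a6, a7⟩ := List.any_eq_true.1 (loop_grd (g := JD.stA st)
        (fun _ _ => grd_spec) h5 a a5)
      refine H.hg (H.toWxJ.hgCF h3) a 𝒵 (fun _ hg x hx ha => ?_) ⟨_, List.mem_map_of_mem a6,
        Nat.le_of_ble_eq_true (grd_spec a7).1, (grd_spec a7).2⟩
      obtain ⟨g, -, rfl⟩ := List.mem_map.1 hg
      obtain ⟨e, he, rfl⟩ := List.mem_map.1 hx
      exact h e (List.mem_filter.1 he).1 ha
    · exact H.nr.hg (hG_iff.1 ((H.toWxJ.hgEm h4).le (by simpa [Le, inU_one] using a5)))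
  · obtain ⟨a5, a6, a7⟩ := a2 e he
    rw [Rb, a5]
    exact H.nr.rc a6.le (by omega) (a7.rc (Le.refl _) (Le.refl _))
  · obtain ⟨n, a5, rfl⟩ := List.mem_map.1 hk
    exact H.ik (H.toWxJ.bn h4).1 (List.all_eq_true.1 h7 n a5) fun e he => (a2 e he).2.2

end WN

end Vale.Agent.P236JX

end
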