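import Vale.Agent.P236JA.Bas
import Vale.Agent.P236JG.Base

/-!
# P236JA / S_14_84 : the cohomology in degree 14 and weight 84
-/

noncomputable section

namespace Vale.Agent.P236JA.S_14_84

open Vale.Agent.P251.F Vale.Agent.P251.I Vale.Agent.P236SY Vale.Agent.P236R
open Vale.Agent.P236EL Vale.Agent.P236KE Vale.Agent.P236K3 Vale.Agent.P236KE.S90
open Vale.Agent.P236JX Vale.Agent.P236JT Vale.Agent.P236JG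

/-- the classes -/
def bl : List Be := [
  ⟨0, 3, [⟨27, 0, 0, 0, 0, 1⟩]⟩,
  ⟨2, 5, [⟨26, 2, 0, 0, 0, 1⟩]⟩,
  ⟨5, 8, [⟨20, 5, 2, 0, 0, 1⟩, ⟨14, 2, 5, 0, 0, 2⟩, ⟨15, 0, 5, 0, 0, 1⟩, ⟨21, 3, 2, 0, 0, 2⟩]⟩,
  ⟨6, 9, [⟨20, 5, 2, 0, 0, 1⟩, ⟨13, 0, 6, 0, 0, 1⟩, ⟨16, 6, 0, 1, 0, 2⟩]⟩,
  ⟨7, 10, [⟨19, 7, 2, 0, 0, 1⟩, ⟨11, 0, 7, 0, 0, 1⟩, ⟨14, 2, 5, 0, 0, 1⟩, ⟨20, 5, 2, 0, 0, 2⟩]⟩,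
  ⟨7, 10, [⟨10, 2, 7, 0, 0, 1⟩, ⟨13, 4, 5, 0, 0, 2⟩, ⟨14, 2, 5, 0, 0, 2⟩, ⟨4, 0, 4, 3, 0, 1⟩, ⟨7, 2, 2, 3, 0, 1⟩]⟩,
  ⟨9, 11, [⟨10, 2, 7, 0, 0, 1⟩, ⟨20, 9, 1, 0, 0, 2⟩, ⟨0, 0, 6, 3, 0, 1⟩, ⟨3, 2, 4, 3, 0, 1⟩, ⟨6, 4, 2, 3, 0, 1⟩, ⟨13, 4, 5, 0, 0, 1⟩, ⟨19, 7, 2, 0, 0, 2⟩]⟩]
/-- leading terms of coboundaries -/
def zs : List Be := [
  ⟨9, 10, [⟨9, 0, 8, 1, 0, 1⟩, ⟨10, 2, 7, 0, 0, 1⟩, ⟨10, 5, 3, 1, 0, 2⟩]⟩]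
def st : List St := [
  ⟨0, [(0, 0)], [(3, 3)], [(0, 0)], [(0, 1)], true⟩,
  ⟨1, [(0, 1)], [(3, 4)], [(0, 0)], [(0, 2)], false⟩,
  ⟨2, [(0, 2)], [(3, 5)], [(0, 0)], [(0, 3)], true⟩,
  ⟨3, [(0, 3)], [(3, 6)], [(0, 1)], [(0, 4)], false⟩,
  ⟨4, [(0, 4)], [(3, 7)], [(0, 2)], [(0, 5)], false⟩,
  ⟨5, [(0, 5)], [(3, 8)], [(0, 3)], [(0, 6)], true⟩,
  ⟨6, [(0, 6)], [(3, 9)], [(0, 4)], [(0, 7)], true⟩,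
  ⟨7, [(0, 7)], [(3, 10)], [(0, 5)], [(0, 8)], true⟩,
  ⟨8, [(0, 8)], [(3, 11)], [(0, 6)], [(0, 9)], false⟩,
  ⟨9, [(0, 9)], [(3, 12)], [(0, 2)], [(0, 10), (3, 5)], true⟩,
  ⟨9, [(0, 10), (3, 5)], [(3, 13), (6, 8)], [(0, 3)], [(0, 10), (3, 6)], false⟩,
  ⟨9, [(0, 10), (3, 6)], [(3, 13), (6, 9)], [(0, 4)], [(0, 10), (3, 7)], false⟩,
  ⟨9, [(0, 10), (3, 7)], [(3, 13), (6, 10)], [(0, 5)], [(0, 10), (3, 8)], false⟩,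
  ⟨9, [(0, 10), (3, 8)], [(3, 13), (6, 11)], [(0, 6)], [(0, 10), (3, 9)], false⟩,
  ⟨9, [(0, 10), (3, 9)], [(3, 13), (6, 12)], [(0, 7)], [(0, 10)], false⟩,
  ⟨10, [(0, 10)], [(3, 13)], [(0, 8)], [(0, 11)], false⟩,
  ⟨11, [(0, 11)], [(3, 14)], [(0, 9)], [(0, 12)], false⟩,
  ⟨12, [(0, 12)], [(3, 15)], [(0, 10)], [(0, 13)], false⟩,
  ⟨13, [(0, 13)], [(3, 16)], [(0, 11)], [(0, 14)], false⟩,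
  ⟨14, [(0, 14)], [(3, 17)], [(0, 12)], [(0, 15)], false⟩,
  ⟨15, [(0, 15)], [(3, 18)], [(0, 13)], [(0, 16)], false⟩,
  ⟨16, [(0, 16)], [(3, 19)], [(0, 14)], [(0, 17)], false⟩,
  ⟨17, [(0, 17)], [(3, 20)], [(0, 15)], [(0, 18)], false⟩,
  ⟨18, [(0, 18)], [(3, 21)], [(0, 16)], [(0, 19)], false⟩,
  ⟨19, [(0, 19)], [(3, 22)], [(0, 17)], [(0, 20)], false⟩,
  ⟨20, [(0, 20)], [(3, 23)], [(0, 18)], [(0, 21)], false⟩,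
  ⟨21, [(0, 21)], [(3, 24)], [(0, 19)], [(0, 22)], false⟩,
  ⟨22, [(0, 22)], [(3, 25)], [(0, 20)], [(0, 23)], false⟩,
  ⟨23, [(0, 23)], [(3, 26)], [(0, 21)], [(0, 24)], false⟩,
  ⟨24, [(0, 24)], [(3, 27)], [(0, 22)], [(0, 25)], false⟩,
  ⟨25, [(0, 25)], [(3, 28)], [(0, 23)], [(0, 26)], false⟩,
  ⟨26, [(0, 26)], [(3, 29)], [(0, 24)], [(0, 27)], false⟩,
  ⟨27, [(0, 27)], [(3, 30)], [(0, 25)], [(0, 28)], false⟩,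
  ⟨28, [(0, 28)], [(3, 31)], [(0, 26)], [(0, 29)], false⟩,
  ⟨29, [(0, 29)], [(3, 32)], [(0, 27)], [(0, 30)], false⟩,
  ⟨30, [(0, 30)], [(3, 33)], [(0, 28)], [(0, 31)], false⟩,
  ⟨31, [(0, 31)], [(3, 34)], [(0, 29)], [(0, 32)], false⟩,
  ⟨32, [(0, 32)], [(3, 35)], [(0, 30)], [(0, 33)], false⟩,
  ⟨33, [(0, 33)], [(3, 36)], [(0, 31)], [(0, 34)], false⟩,
  ⟨34, [(0, 34)], [(3, 37)], [(0, 32)], [(0, 35)], false⟩,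
  ⟨35, [(0, 35)], [(3, 38)], [(0, 33)], [(0, 36)], false⟩,
  ⟨36, [(0, 36)], [(3, 39)], [(0, 34)], [(0, 37)], false⟩,
  ⟨37, [(0, 37)], [(3, 40)], [(0, 35)], [(0, 38)], false⟩,
  ⟨38, [(0, 38)], [(3, 41)], [(0, 36)], [(0, 39)], false⟩,
  ⟨39, [(0, 39)], [(3, 42)], [(0, 37)], [(0, 40)], false⟩,
  ⟨40, [(0, 40)], [(3, 43)], [(0, 38)], [(0, 41)], false⟩,
  ⟨41, [(0, 41)], [(3, 44)], [(0, 39)], [(0, 42)], false⟩,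
  ⟨42, [(0, 42)], [(3, 45)], [(0, 40)], [(0, 43)], false⟩,
  ⟨43, [(0, 43)], [(3, 46)], [(0, 41)], [(0, 44)], false⟩,
  ⟨44, [(0, 44)], [(3, 47)], [(0, 42)], [(0, 45)], false⟩,
  ⟨45, [(0, 45)], [(3, 48)], [(0, 43)], [(0, 46)], false⟩,
  ⟨46, [(0, 46)], [(3, 49)], [(0, 44)], [(0, 47)], false⟩,
  ⟨47, [(0, 47)], [(3, 50)], [(0, 45)], [(0, 48)], false⟩,
  ⟨48, [(0, 48)], [(3, 51)], [(0, 46)], [(0, 49)], false⟩,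
  ⟨49, [(0, 49)], [(3, 52)], [(0, 47)], [(0, 50)], false⟩,
  ⟨50, [(0, 50)], [(3, 53)], [(0, 48)], [(0, 51)], false⟩,
  ⟨51, [(0, 51)], [(3, 54)], [(0, 49)], [(0, 52)], false⟩,
  ⟨52, [(0, 52)], [(3, 55)], [(0, 50)], [(0, 53)], false⟩,
  ⟨53, [(0, 53)], [(3, 56)], [(0, 51)], [(0, 54)], false⟩,
  ⟨54, [(0, 54)], [(3, 57)], [(0, 52)], [(0, 55)], false⟩,
  ⟨55, [(0, 55)], [(3, 58)], [(0, 53)], [(0, 56)], false⟩,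
  ⟨56, [(0, 56)], [(3, 59)], [(0, 54)], [(0, 57)], false⟩,
  ⟨57, [(0, 57)], [(3, 60)], [(0, 55)], [(0, 58)], false⟩,
  ⟨58, [(0, 58)], [(3, 61)], [(0, 56)], [(0, 59)], false⟩,
  ⟨59, [(0, 59)], [(3, 62)], [(0, 57)], [(0, 60)], false⟩,
  ⟨60, [(0, 60)], [(3, 63)], [(0, 58)], [(0, 61)], false⟩,
  ⟨61, [(0, 61)], [(3, 64)], [(0, 59)], [(0, 62)], false⟩,
  ⟨62, [(0, 62)], [(3, 65)], [(0, 60)], [(0, 63)], false⟩,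
  ⟨63, [(0, 63)], [(3, 66)], [(0, 61)], [(0, 64)], false⟩]
def nk : List Nk := [
  ⟨0, [(0, 0)], [(0, 1)], [⟨[(0, 0)], [(3, 3)], [(0, 1)], [(0, 1)], [[⟨27, 0, 0, 0, 0, 1⟩]]⟩]⟩,
  ⟨2, [(0, 0)], [(0, 3)], [⟨[(0, 2)], [(3, 5)], [(0, 3)], [(0, 3)], [[⟨26, 2, 0, 0, 0, 1⟩]]⟩]⟩,
  ⟨5, [(0, 3)], [(0, 6)], [⟨[(0, 5)], [(3, 8)], [(0, 6)], [(0, 6), (3, 3)], [[⟨19, 2, 0, 1, 0, 2⟩, ⟨20, 1, 3, 0, 0, 2⟩, ⟨22, 1, 2, 0, 0, 2⟩, ⟨24, 3, 1, 0, 0, 1⟩]]⟩]⟩,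
  ⟨6, [(0, 4)], [(0, 7)], [⟨[(0, 6)], [(3, 9)], [(0, 7)], [(0, 7), (3, 3)], [[⟨13, 0, 6, 0, 0, 1⟩]]⟩]⟩,
  ⟨7, [(0, 5)], [(0, 8)], [⟨[(0, 7)], [(3, 10)], [(0, 8)], [(0, 8), (3, 3)], [[⟨5, 1, 0, 4, 0, 1⟩, ⟨6, 0, 3, 3, 0, 1⟩, ⟨8, 0, 2, 3, 0, 1⟩, ⟨15, 3, 1, 1, 0, 1⟩, ⟨18, 4, 0, 1, 0, 2⟩, ⟨19, 3, 3, 0, 0, 1⟩, ⟨21, 3, 2, 0, 0, 2⟩], [⟨11, 0, 7, 0, 0, 1⟩, ⟨17, 2, 4, 0, 0, 1⟩, ⟨19, 3, 3, 0, 0, 2⟩, ⟨22, 5, 1, 0, 0, 1⟩]]⟩]⟩,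
  ⟨9, [(0, 7)], [(0, 10)], [⟨[(0, 9)], [(3, 12)], [(0, 10)], [(0, 10), (3, 3)], [[⟨0, 0, 6, 3, 0, 2⟩, ⟨3, 2, 4, 3, 0, 2⟩, ⟨8, 4, 1, 3, 0, 2⟩, ⟨10, 2, 7, 0, 0, 2⟩, ⟨15, 4, 4, 0, 0, 1⟩, ⟨18, 5, 3, 0, 0, 2⟩]]⟩]⟩]

theorem ck : eJ.atC 14 84 0 60 64 bl zs [2] st nk = true := by decide +kernel

variable [Fact (Nat.Prime 3)]

theorem at' (h : HK) : At rS 0 iS 14 84 bl zs [0, 2, 5, 6, 7, 9] :=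
  (wnS h).at' ck

theorem bs (h : HK) : Nonempty (Bs rS 0 iS 14 84 7 bl) :=
  (at' h).bs' (P236EL.wdS ok3) (by decide) rfl

end Vale.Agent.P236JA.S_14_84

end
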