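import Vale.Agent.P236JA.Bas
import Vale.Agent.P236JG.Base

/-!
# P236JA / S_8_69 : the cohomology in degree 8 and weight 69
-/

noncomputable section

namespace Vale.Agent.P236JA.S_8_69

open Vale.Agent.P251.F Vale.Agent.P251.I Vale.Agent.P236SY Vale.Agent.P236R
open Vale.Agent.P236EL Vale.Agent.P236KE Vale.Agent.P236K3 Vale.Agent.P236KE.S90
open Vale.Agent.P236JX Vale.Agent.P236JT Vale.Agent.P236JG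

/-- the classes -/
def bl : List Be := [
  ⟨3, 5, [⟨23, 3, 0, 0, 0, 1⟩]⟩,
  ⟨4, 7, [⟨2, 1, 3, 0, 1, 2⟩, ⟨12, 2, 2, 1, 0, 1⟩, ⟨0, 1, 4, 0, 1, 1⟩, ⟨0, 4, 0, 1, 1, 1⟩, ⟨3, 3, 2, 0, 1, 1⟩, ⟨17, 5, 1, 0, 0, 1⟩, ⟨15, 4, 2, 0, 0, 1⟩, ⟨14, 1, 3, 0, 0, 1⟩, ⟨18, 3, 1, 0, 0, 2⟩, ⟨16, 3, 2, 0, 0, 1⟩, ⟨11, 3, 2, 1, 0, 1⟩]⟩,
  ⟨4, 7, [⟨17, 5, 1, 0, 0, 2⟩, ⟨18, 3, 1, 0, 0, 2⟩, ⟨16, 3, 2, 0, 0, 1⟩, ⟨7, 0, 1, 3, 0, 1⟩, ⟨5, 0, 2, 3, 0, 1⟩]⟩,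
  ⟨5, 7, [⟨17, 5, 1, 0, 0, 1⟩, ⟨2, 1, 0, 4, 0, 1⟩, ⟨2, 1, 3, 0, 1, 2⟩, ⟨12, 2, 2, 1, 0, 2⟩, ⟨0, 1, 1, 4, 0, 2⟩, ⟨0, 1, 4, 0, 1, 1⟩, ⟨0, 4, 0, 1, 1, 1⟩, ⟨3, 3, 2, 0, 1, 1⟩]⟩,
  ⟨6, 9, [⟨11, 0, 6, 0, 0, 1⟩, ⟨13, 2, 4, 0, 0, 2⟩, ⟨15, 4, 2, 0, 0, 1⟩, ⟨17, 5, 1, 0, 0, 2⟩, ⟨14, 5, 2, 0, 0, 2⟩, ⟨16, 7, 1, 0, 0, 1⟩]⟩,
  ⟨6, 9, [⟨13, 2, 4, 0, 0, 1⟩, ⟨15, 4, 2, 0, 0, 2⟩, ⟨3, 0, 3, 3, 0, 1⟩, ⟨4, 2, 2, 3, 0, 1⟩]⟩,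
  ⟨8, 11, [⟨14, 9, 1, 0, 0, 2⟩, ⟨8, 0, 7, 1, 0, 1⟩, ⟨3, 1, 6, 2, 0, 2⟩, ⟨6, 0, 8, 1, 0, 2⟩, ⟨9, 5, 2, 2, 0, 1⟩, ⟨11, 4, 5, 0, 0, 1⟩, ⟨11, 7, 1, 1, 0, 2⟩, ⟨4, 3, 5, 2, 0, 1⟩]⟩]
/-- leading terms of coboundaries -/
def zs : List Be := [
  ]
def st : List St := [
  ⟨0, [(0, 0)], [(3, 3)], [(0, 0)], [(0, 1)], false⟩,
  ⟨1, [(0, 1)], [(3, 4)], [(0, 0)], [(0, 2)], false⟩,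
  ⟨2, [(0, 2)], [(3, 5)], [(0, 0)], [(0, 3)], false⟩,
  ⟨3, [(0, 3)], [(3, 6)], [(0, 1)], [(0, 4)], true⟩,
  ⟨4, [(0, 4)], [(3, 7)], [(0, 2)], [(0, 5)], true⟩,
  ⟨5, [(0, 5)], [(3, 8)], [(0, 3)], [(0, 6)], true⟩,
  ⟨6, [(0, 6)], [(3, 9)], [(0, 4)], [(0, 7)], true⟩,
  ⟨7, [(0, 7)], [(3, 10)], [(0, 5)], [(0, 8)], false⟩,
  ⟨8, [(0, 8)], [(3, 11)], [(0, 6)], [(0, 9)], true⟩,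
  ⟨9, [(0, 9)], [(3, 12)], [(0, 7)], [(0, 10)], false⟩,
  ⟨10, [(0, 10)], [(3, 13)], [(0, 8)], [(0, 11)], false⟩,
  ⟨11, [(0, 11)], [(3, 14)], [(0, 9)], [(0, 12)], false⟩,
  ⟨12, [(0, 12)], [(3, 15)], [(0, 10)], [(0, 13)], false⟩,
  ⟨13, [(0, 13)], [(3, 16)], [(0, 11)], [(0, 14)], false⟩,
  ⟨14, [(0, 14)], [(3, 17)], [(0, 12)], [(0, 15)], false⟩,
  ⟨15, [(0, 15)], [(3, 18)], [(0, 13)], [(0, 16)], false⟩,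
  ⟨16, [(0, 16)], [(3, 19)], [(0, 14)], [(0, 17)], false⟩,
  ⟨17, [(0, 17)], [(3, 20)], [(0, 15)], [(0, 18)], false⟩,
  ⟨18, [(0, 18)], [(3, 21)], [(0, 16)], [(0, 19)], false⟩,
  ⟨19, [(0, 19)], [(3, 22)], [(0, 17)], [(0, 20)], false⟩,
  ⟨20, [(0, 20)], [(3, 23)], [(0, 18)], [(0, 21)], false⟩,
  ⟨21, [(0, 21)], [(3, 24)], [(0, 19)], [(0, 22)], false⟩,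
  ⟨22, [(0, 22)], [(3, 25)], [(0, 20)], [(0, 23)], false⟩,
  ⟨23, [(0, 23)], [(3, 26)], [(0, 21)], [(0, 24)], false⟩,
  ⟨24, [(0, 24)], [(3, 27)], [(0, 22)], [(0, 25)], false⟩,
  ⟨25, [(0, 25)], [(3, 28)], [(0, 23)], [(0, 26)], false⟩,
  ⟨26, [(0, 26)], [(3, 29)], [(0, 24)], [(0, 27)], false⟩,
  ⟨27, [(0, 27)], [(3, 30)], [(0, 25)], [(0, 28)], false⟩,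
  ⟨28, [(0, 28)], [(3, 31)], [(0, 26)], [(0, 29)], false⟩,
  ⟨29, [(0, 29)], [(3, 32)], [(0, 27)], [(0, 30)], false⟩,
  ⟨30, [(0, 30)], [(3, 33)], [(0, 28)], [(0, 31)], false⟩,
  ⟨31, [(0, 31)], [(3, 34)], [(0, 29)], [(0, 32)], false⟩,
  ⟨32, [(0, 32)], [(3, 35)], [(0, 30)], [(0, 33)], false⟩,
  ⟨33, [(0, 33)], [(3, 36)], [(0, 31)], [(0, 34)], false⟩,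
  ⟨34, [(0, 34)], [(3, 37)], [(0, 32)], [(0, 35)], false⟩,
  ⟨35, [(0, 35)], [(3, 38)], [(0, 33)], [(0, 36)], false⟩,
  ⟨36, [(0, 36)], [(3, 39)], [(0, 34)], [(0, 37)], false⟩,
  ⟨37, [(0, 37)], [(3, 40)], [(0, 35)], [(0, 38)], false⟩,
  ⟨38, [(0, 38)], [(3, 41)], [(0, 36)], [(0, 39)], false⟩,
  ⟨39, [(0, 39)], [(3, 42)], [(0, 37)], [(0, 40)], false⟩,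
  ⟨40, [(0, 40)], [(3, 43)], [(0, 38)], [(0, 41)], false⟩,
  ⟨41, [(0, 41)], [(3, 44)], [(0, 39)], [(0, 42)], false⟩,
  ⟨42, [(0, 42)], [(3, 45)], [(0, 40)], [(0, 43)], false⟩,
  ⟨43, [(0, 43)], [(3, 46)], [(0, 41)], [(0, 44)], false⟩,
  ⟨44, [(0, 44)], [(3, 47)], [(0, 42)], [(0, 45)], false⟩,
  ⟨45, [(0, 45)], [(3, 48)], [(0, 43)], [(0, 46)], false⟩,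
  ⟨46, [(0, 46)], [(3, 49)], [(0, 44)], [(0, 47)], false⟩,
  ⟨47, [(0, 47)], [(3, 50)], [(0, 45)], [(0, 48)], false⟩,
  ⟨48, [(0, 48)], [(3, 51)], [(0, 46)], [(0, 49)], false⟩,
  ⟨49, [(0, 49)], [(3, 52)], [(0, 47)], [(0, 50)], false⟩,
  ⟨50, [(0, 50)], [(3, 53)], [(0, 48)], [(0, 51)], false⟩,
  ⟨51, [(0, 51)], [(3, 54)], [(0, 49)], [(0, 52)], false⟩,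
  ⟨52, [(0, 52)], [(3, 55)], [(0, 50)], [(0, 53)], false⟩,
  ⟨53, [(0, 53)], [(3, 56)], [(0, 51)], [(0, 54)], false⟩,
  ⟨54, [(0, 54)], [(3, 57)], [(0, 52)], [(0, 55)], false⟩,
  ⟨55, [(0, 55)], [(3, 58)], [(0, 53)], [(0, 56)], false⟩,
  ⟨56, [(0, 56)], [(3, 59)], [(0, 54)], [(0, 57)], false⟩,
  ⟨57, [(0, 57)], [(3, 60)], [(0, 55)], [(0, 58)], false⟩]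
def nk : List Nk := [
  ⟨3, [(0, 1)], [(0, 4)], [⟨[(0, 3)], [(3, 6)], [(0, 4), (3, 3)], [(0, 4), (3, 3)], []⟩,
    ⟨[(0, 4), (3, 3)], [(3, 7), (6, 6)], [(0, 5), (3, 3)], [(0, 5), (3, 3)], [[⟨9, 0, 0, 3, 0, 1⟩, ⟨19, 2, 1, 0, 0, 2⟩], [⟨17, 1, 2, 0, 0, 2⟩, ⟨19, 2, 1, 0, 0, 2⟩, ⟨20, 1, 1, 0, 0, 1⟩]]⟩,
    ⟨[(0, 5), (3, 3)], [(3, 8), (6, 6)], [(0, 6), (3, 3)], [(0, 6), (3, 3)], [[⟨2, 1, 0, 4, 0, 1⟩], [⟨15, 0, 3, 0, 0, 1⟩, ⟨17, 1, 2, 0, 0, 2⟩, ⟨19, 2, 1, 0, 0, 1⟩, ⟨20, 1, 1, 0, 0, 1⟩]]⟩,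
    ⟨[(0, 6), (3, 3)], [(3, 9), (6, 6)], [(0, 4)], [(0, 4)], []⟩]⟩,
  ⟨4, [(0, 2)], [(0, 5)], [⟨[(0, 4)], [(3, 7)], [(0, 5)], [(0, 5), (3, 3)], [[⟨8, 1, 0, 0, 1, 2⟩, ⟨18, 3, 1, 0, 0, 1⟩, ⟨20, 1, 1, 0, 0, 1⟩, ⟨21, 1, 1, 0, 0, 1⟩, ⟨23, 3, 0, 0, 0, 1⟩], [⟨17, 1, 2, 0, 0, 2⟩, ⟨18, 3, 1, 0, 0, 1⟩, ⟨19, 2, 1, 0, 0, 2⟩, ⟨20, 1, 1, 0, 0, 1⟩]]⟩]⟩,
  ⟨5, [(0, 3)], [(0, 6)], [⟨[(0, 5)], [(3, 8)], [(0, 6)], [(0, 6), (3, 3)], [[⟨2, 1, 0, 4, 0, 1⟩, ⟨12, 2, 2, 1, 0, 1⟩, ⟨14, 1, 3, 0, 0, 1⟩, ⟨15, 0, 3, 0, 0, 1⟩, ⟨16, 3, 2, 0, 0, 1⟩, ⟨19, 2, 1, 0, 0, 2⟩]]⟩]⟩,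
  ⟨6, [(0, 4)], [(0, 7)], [⟨[(0, 6)], [(3, 9)], [(0, 7)], [(0, 7), (3, 3)], [[⟨3, 0, 3, 3, 0, 1⟩, ⟨13, 2, 4, 0, 0, 1⟩, ⟨15, 4, 2, 0, 0, 2⟩], [⟨11, 0, 6, 0, 0, 1⟩, ⟨13, 2, 4, 0, 0, 2⟩, ⟨15, 4, 2, 0, 0, 1⟩, ⟨17, 5, 1, 0, 0, 2⟩]]⟩]⟩,
  ⟨8, [(0, 6)], [(0, 9)], [⟨[(0, 8)], [(3, 11)], [(0, 9)], [(0, 9), (3, 3)], [[⟨8, 0, 7, 1, 0, 1⟩]]⟩]⟩]

theorem ck : eJ.atC 8 69 0 54 58 bl zs [] st nk = true := by decide +kernel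

variable [Fact (Nat.Prime 3)]

theorem at' (h : HK) : At rS 0 iS 8 69 bl zs [3, 4, 5, 6, 8] :=
  (wnS h).at' ck

theorem bs (h : HK) : Nonempty (Bs rS 0 iS 8 69 7 bl) :=
  (at' h).bs' (P236EL.wdS ok3) (by decide) rfl

end Vale.Agent.P236JA.S_8_69

end
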